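import Vale.Agent.P264Z.FStmt
import Mathlib.Analysis.Calculus.ContDiff.Deriv
import Mathlib.Analysis.Calculus.Deriv.Comp
import Mathlib.Analysis.Calculus.Deriv.Mul
import Mathlib.MeasureTheory.Integral.IntervalIntegral.IntegrationByParts

/-!
# P264: basic calculus for the reduced operators
-/

open scoped ContDiff Topology
open Set Filter MeasureTheory

noncomputable section

namespace Vale.Agent.P264Z

variable {f g : ℝ → ℝ}

lemma sm_deriv (hf : ContDiff ℝ ∞ f) : ContDiff ℝ ∞ (deriv f) :=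
  (contDiff_infty_iff_deriv.1 hf).2

lemma sm_diff (hf : ContDiff ℝ ∞ f) : Differentiable ℝ f := hf.differentiable (by simp)

lemma sm_hasDerivAt (hf : ContDiff ℝ ∞ f) (x : ℝ) : HasDerivAt f (deriv f x) x :=
  (sm_diff hf x).hasDerivAt

lemma sm_Mop (n : ℕ) (hf : ContDiff ℝ ∞ f) : ContDiff ℝ ∞ (Mop n f) := by
  unfold Mop
  exact (((contDiff_id.pow 2).mul (sm_deriv (sm_deriv hf))).add
    ((contDiff_const.mul contDiff_id).mul (sm_deriv hf))).add (contDiff_const.mul hf)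

lemma sm_Lop (n : ℕ) (hf : ContDiff ℝ ∞ f) : ContDiff ℝ ∞ (Lop n f) :=
  sm_deriv (sm_deriv (sm_Mop n hf))

lemma sm_dn (hf : ContDiff ℝ ∞ f) : ContDiff ℝ ∞ (dn f) := by
  unfold dn
  exact (((contDiff_id.pow 4).mul ((sm_deriv (sm_deriv hf)).pow 2)).add
    ((contDiff_id.pow 2).mul ((sm_deriv hf).pow 2))).add (hf.pow 2)

lemma sm_vw (b : ℝ) : ContDiff ℝ ∞ (vw b) := by
  unfold vw
  exact contDiff_const.sub (contDiff_id.div_const b)

lemma sm_dh (b : ℝ) (hf : ContDiff ℝ ∞ f) : ContDiff ℝ ∞ (dh b f) := by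
  unfold dh
  exact ((((contDiff_id.pow 4).mul ((sm_vw b).pow 4)).mul ((sm_deriv (sm_deriv hf)).pow 2)).add
    (((contDiff_id.pow 2).mul ((sm_vw b).pow 2)).mul ((sm_deriv hf).pow 2))).add (hf.pow 2)

lemma sm_cut (B : ℝ) : ContDiff ℝ ∞ (cut B) := by
  unfold cut
  exact Real.smoothTransition.contDiff.comp (contDiff_const.sub (contDiff_id.div_const B))

lemma sm_com (B : ℝ) (hf : ContDiff ℝ ∞ f) : ContDiff ℝ ∞ (com B f) := by
  unfold com
  exact (sm_Lop 10 ((sm_cut B).mul hf)).sub ((sm_cut B).mul (sm_Lop 10 hf))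

lemma cut_one {B x : ℝ} (hB : 0 < B) (hx : x ≤ B) : cut B x = 1 := by
  unfold cut
  refine Real.smoothTransition.one_of_one_le ?_
  have : x / B ≤ 1 := (div_le_one hB).2 hx
  linarith

lemma cut_zero {B x : ℝ} (hB : 0 < B) (hx : 2 * B ≤ x) : cut B x = 0 := by
  unfold cut
  refine Real.smoothTransition.zero_of_nonpos ?_
  have : 2 ≤ x / B := (le_div_iff₀ hB).2 hx
  linarith

lemma cut_nonneg (B x : ℝ) : 0 ≤ cut B x := Real.smoothTransition.nonneg _

lemma cut_le_one (B x : ℝ) : cut B x ≤ 1 := Real.smoothTransition.le_one _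

lemma cut_scale (B x l : ℝ) : cut (B / l) x = cut B (l * x) := by
  unfold cut
  congr 1
  by_cases hB : B = 0
  · simp [hB]
  · field_simp

lemma vw_nonneg {b x : ℝ} (hb : 0 < b) (hx : x ≤ b) : 0 ≤ vw b x := by
  unfold vw
  have : x / b ≤ 1 := (div_le_one hb).2 hx
  linarith

lemma vw_le_one {b x : ℝ} (hb : 0 < b) (hx : 0 ≤ x) : vw b x ≤ 1 := by
  unfold vw
  have : 0 ≤ x / b := div_nonneg hx hb.le
  linarith

lemma half_le_vw {b x : ℝ} (hb : 0 < b) (hx : x ≤ b / 2) : 1 / 2 ≤ vw b x := by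
  unfold vw
  have : x / b ≤ 1 / 2 := by rw [div_le_iff₀ hb]; linarith
  linarith

/-! ### linearity -/

lemma deriv_add' (hf : ContDiff ℝ ∞ f) (hg : ContDiff ℝ ∞ g) :
    deriv (fun x => f x + g x) = fun x => deriv f x + deriv g x :=
  funext fun x => ((sm_hasDerivAt hf x).add (sm_hasDerivAt hg x)).deriv

lemma deriv_sub' (hf : ContDiff ℝ ∞ f) (hg : ContDiff ℝ ∞ g) :
    deriv (fun x => f x - g x) = fun x => deriv f x - deriv g x :=
  funext fun x => ((sm_hasDerivAt hf x).sub (sm_hasDerivAt hg x)).deriv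

lemma deriv_cmul' (c : ℝ) (f : ℝ → ℝ) :
    deriv (fun x => c * f x) = fun x => c * deriv f x :=
  funext fun _ => deriv_const_mul_field c

lemma deriv_mul' (hf : ContDiff ℝ ∞ f) (hg : ContDiff ℝ ∞ g) :
    deriv (fun x => f x * g x) = fun x => deriv f x * g x + f x * deriv g x :=
  funext fun x => ((sm_hasDerivAt hf x).mul (sm_hasDerivAt hg x)).deriv

lemma deriv2_mul' (hf : ContDiff ℝ ∞ f) (hg : ContDiff ℝ ∞ g) :
    deriv (deriv (fun x => f x * g x)) = fun x =>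
      deriv (deriv f) x * g x + 2 * deriv f x * deriv g x + f x * deriv (deriv g) x := by
  rw [deriv_mul' hf hg, deriv_add' ((sm_deriv hf).mul hg) (hf.mul (sm_deriv hg)),
    deriv_mul' (sm_deriv hf) hg, deriv_mul' hf (sm_deriv hg)]
  funext x; ring

lemma Mop_add (n : ℕ) (hf : ContDiff ℝ ∞ f) (hg : ContDiff ℝ ∞ g) :
    Mop n (fun x => f x + g x) = fun x => Mop n f x + Mop n g x := by
  funext x
  unfold Mop
  rw [deriv_add' hf hg, deriv_add' (sm_deriv hf) (sm_deriv hg)]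
  ring

lemma Mop_sub (n : ℕ) (hf : ContDiff ℝ ∞ f) (hg : ContDiff ℝ ∞ g) :
    Mop n (fun x => f x - g x) = fun x => Mop n f x - Mop n g x := by
  funext x
  unfold Mop
  rw [deriv_sub' hf hg, deriv_sub' (sm_deriv hf) (sm_deriv hg)]
  ring

lemma Mop_cmul (n : ℕ) (c : ℝ) (f : ℝ → ℝ) :
    Mop n (fun x => c * f x) = fun x => c * Mop n f x := by
  funext x
  unfold Mop
  rw [deriv_cmul', deriv_cmul']
  ring

lemma Lop_add (n : ℕ) (hf : ContDiff ℝ ∞ f) (hg : ContDiff ℝ ∞ g) :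
    Lop n (fun x => f x + g x) = fun x => Lop n f x + Lop n g x := by
  unfold Lop
  rw [Mop_add n hf hg, deriv_add' (sm_Mop n hf) (sm_Mop n hg),
    deriv_add' (sm_deriv (sm_Mop n hf)) (sm_deriv (sm_Mop n hg))]

lemma Lop_sub (n : ℕ) (hf : ContDiff ℝ ∞ f) (hg : ContDiff ℝ ∞ g) :
    Lop n (fun x => f x - g x) = fun x => Lop n f x - Lop n g x := by
  unfold Lop
  rw [Mop_sub n hf hg, deriv_sub' (sm_Mop n hf) (sm_Mop n hg),
    deriv_sub' (sm_deriv (sm_Mop n hf)) (sm_deriv (sm_Mop n hg))]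

lemma Lop_cmul (n : ℕ) (c : ℝ) (f : ℝ → ℝ) :
    Lop n (fun x => c * f x) = fun x => c * Lop n f x := by
  unfold Lop
  rw [Mop_cmul, deriv_cmul', deriv_cmul']

lemma Lop_const (n : ℕ) (c : ℝ) : Lop n (fun _ => c) = fun _ => 0 := by
  have h : Mop n (fun _ => c) = fun _ => (n : ℝ) * ((n : ℝ) + 1) * c := by
    funext x; unfold Mop; simp
  funext x
  unfold Lop
  rw [h]; simp

/-! ### locality -/

lemma deriv_evEq {x : ℝ} (h : f =ᶠ[𝓝 x] g) : deriv f =ᶠ[𝓝 x] deriv g := h.deriv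

lemma Mop_evEq (n : ℕ) {x : ℝ} (h : f =ᶠ[𝓝 x] g) : Mop n f =ᶠ[𝓝 x] Mop n g := by
  filter_upwards [h, h.deriv, h.deriv.deriv] with z h0 h1 h2
  unfold Mop
  rw [h0, h1, h2]

lemma Lop_evEq (n : ℕ) {x : ℝ} (h : f =ᶠ[𝓝 x] g) : Lop n f =ᶠ[𝓝 x] Lop n g :=
  (Mop_evEq n h).deriv.deriv

lemma dn_evEq {x : ℝ} (h : f =ᶠ[𝓝 x] g) : dn f x = dn g x := by
  unfold dn
  rw [h.eq_of_nhds, h.deriv.eq_of_nhds, h.deriv.deriv.eq_of_nhds]

lemma dh_evEq (b : ℝ) {x : ℝ} (h : f =ᶠ[𝓝 x] g) : dh b f x = dh b g x := by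
  unfold dh
  rw [h.eq_of_nhds, h.deriv.eq_of_nhds, h.deriv.deriv.eq_of_nhds]

lemma evEq_of_eqOn {U : Set ℝ} (hU : IsOpen U) (h : EqOn f g U) {x : ℝ} (hx : x ∈ U) :
    f =ᶠ[𝓝 x] g := by
  filter_upwards [hU.mem_nhds hx] with z hz using h hz

lemma integral_congr_Ioo {a b : ℝ} (hab : a ≤ b) (h : EqOn f g (Ioo a b)) :
    ∫ x in a..b, f x = ∫ x in a..b, g x := by
  rw [intervalIntegral.integral_of_le hab, intervalIntegral.integral_of_le hab,
    integral_Ioc_eq_integral_Ioo, integral_Ioc_eq_integral_Ioo]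
  exact setIntegral_congr_fun measurableSet_Ioo h

lemma integral_mono_Ioo {a b : ℝ} (hab : a ≤ b) (hf : Continuous f) (hg : Continuous g)
    (h : ∀ x ∈ Ioo a b, f x ≤ g x) : ∫ x in a..b, f x ≤ ∫ x in a..b, g x :=
  intervalIntegral.integral_mono_on_of_le_Ioo hab (hf.intervalIntegrable _ _)
    (hg.intervalIntegrable _ _) h

lemma int_add (hf : Continuous f) (hg : Continuous g) (a b : ℝ) :
    ∫ x in a..b, (f x + g x) = (∫ x in a..b, f x) + ∫ x in a..b, g x :=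
  intervalIntegral.integral_add (hf.intervalIntegrable _ _) (hg.intervalIntegrable _ _)

lemma int_split (hf : Continuous f) (a b c : ℝ) :
    ∫ x in a..c, f x = (∫ x in a..b, f x) + ∫ x in b..c, f x :=
  (intervalIntegral.integral_add_adjacent_intervals (hf.intervalIntegrable _ _)
    (hf.intervalIntegrable _ _)).symm

lemma Dn_congr (p : ℕ) {b : ℝ} (hb : 0 ≤ b) (h : EqOn f g (Ioo 0 b)) : Dn p b f = Dn p b g :=
  integral_congr_Ioo hb fun x hx => by
    show x ^ p * dn f x = x ^ p * dn g x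
    rw [dn_evEq (evEq_of_eqOn isOpen_Ioo h hx)]

lemma En_congr (p : ℕ) {b : ℝ} (hb : 0 ≤ b) {y z : ℝ → ℝ} (hy : EqOn y z (Ioo 0 b))
    (h : EqOn f g (Ioo 0 b)) : En p b y f = En p b z g :=
  integral_congr_Ioo hb fun x hx => by
    show x ^ (p + 2) * y x ^ 2 * Lop 10 f x ^ 2 = x ^ (p + 2) * z x ^ 2 * Lop 10 g x ^ 2
    rw [(Lop_evEq 10 (evEq_of_eqOn isOpen_Ioo h hx)).eq_of_nhds, hy hx]

/-! ### signs and elementary bounds -/

lemma dn_nonneg (f : ℝ → ℝ) (x : ℝ) : 0 ≤ dn f x := by unfold dn; positivity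

lemma dh_nonneg (b : ℝ) (f : ℝ → ℝ) (x : ℝ) : 0 ≤ dh b f x := by unfold dh; positivity

lemma Dn_nonneg (p : ℕ) {b : ℝ} (hb : 0 ≤ b) (f : ℝ → ℝ) : 0 ≤ Dn p b f :=
  intervalIntegral.integral_nonneg hb fun x hx =>
    mul_nonneg (pow_nonneg hx.1 _) (dn_nonneg f x)

lemma Dh_nonneg (p : ℕ) {b : ℝ} (hb : 0 ≤ b) (f : ℝ → ℝ) : 0 ≤ Dh p b f :=
  intervalIntegral.integral_nonneg hb fun x hx =>
    mul_nonneg (pow_nonneg hx.1 _) (dh_nonneg b f x)

lemma En_nonneg (p : ℕ) {b : ℝ} (hb : 0 ≤ b) (y f : ℝ → ℝ) : 0 ≤ En p b y f :=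
  intervalIntegral.integral_nonneg hb fun _ hx =>
    mul_nonneg (mul_nonneg (pow_nonneg hx.1 _) (sq_nonneg _)) (sq_nonneg _)

lemma dn_add_le (hf : ContDiff ℝ ∞ f) (hg : ContDiff ℝ ∞ g) (x : ℝ) :
    dn (fun z => f z + g z) x ≤ 2 * dn f x + 2 * dn g x := by
  unfold dn
  rw [deriv_add' hf hg, deriv_add' (sm_deriv hf) (sm_deriv hg)]
  have h4 : 0 ≤ x ^ 4 := by positivity
  have h2 : 0 ≤ x ^ 2 := by positivity
  nlinarith [mul_nonneg h4 (sq_nonneg (deriv (deriv f) x - deriv (deriv g) x)),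
    mul_nonneg h2 (sq_nonneg (deriv f x - deriv g x)), sq_nonneg (f x - g x)]

lemma dn_cmul (c : ℝ) (f : ℝ → ℝ) (x : ℝ) : dn (fun z => c * f z) x = c ^ 2 * dn f x := by
  unfold dn
  rw [deriv_cmul', deriv_cmul']
  ring

lemma dn_neg (f : ℝ → ℝ) (x : ℝ) : dn (fun z => -f z) x = dn f x := by
  have := dn_cmul (-1) f x
  simpa using this

lemma cont_Dn (p : ℕ) (hf : ContDiff ℝ ∞ f) : Continuous fun x => x ^ p * dn f x :=
  (continuous_pow p).mul (sm_dn hf).continuous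

lemma cont_Dh (p : ℕ) (b : ℝ) (hf : ContDiff ℝ ∞ f) : Continuous fun x => x ^ p * dh b f x :=
  (continuous_pow p).mul (sm_dh b hf).continuous

lemma cont_En (p : ℕ) {y : ℝ → ℝ} (hy : Continuous y) (hf : ContDiff ℝ ∞ f) :
    Continuous fun x => x ^ (p + 2) * y x ^ 2 * Lop 10 f x ^ 2 :=
  ((continuous_pow _).mul (hy.pow 2)).mul ((sm_Lop 10 hf).continuous.pow 2)

lemma Dn_add_le (p : ℕ) {b : ℝ} (hb : 0 ≤ b) (hf : ContDiff ℝ ∞ f) (hg : ContDiff ℝ ∞ g) :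
    Dn p b (fun z => f z + g z) ≤ 2 * Dn p b f + 2 * Dn p b g := by
  unfold Dn
  have h1 : Continuous fun x => 2 * (x ^ p * dn f x) := continuous_const.mul (cont_Dn p hf)
  have h2 : Continuous fun x => 2 * (x ^ p * dn g x) := continuous_const.mul (cont_Dn p hg)
  rw [← intervalIntegral.integral_const_mul, ← intervalIntegral.integral_const_mul,
    ← int_add h1 h2]
  refine integral_mono_Ioo hb (cont_Dn p (hf.add hg)) (h1.add h2) fun x hx => ?_
  have := mul_le_mul_of_nonneg_left (dn_add_le hf hg x) (pow_nonneg hx.1.le p)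
  linarith

lemma Dn_neg (p : ℕ) (b : ℝ) (f : ℝ → ℝ) : Dn p b (fun z => -f z) = Dn p b f := by
  unfold Dn
  simp only [dn_neg]

lemma Dn_sub_le (p : ℕ) {b : ℝ} (hb : 0 ≤ b) (hf : ContDiff ℝ ∞ f) (hg : ContDiff ℝ ∞ g) :
    Dn p b (fun z => f z - g z) ≤ 2 * Dn p b f + 2 * Dn p b g := by
  have := Dn_add_le p hb hf hg.neg
  rw [Dn_neg] at this
  simpa only [sub_eq_add_neg] using this

/-- a pointwise bound gives a bound of the integrals -/
lemma Dn_le_of_pt (p q : ℕ) {b C : ℝ} (hb : 0 ≤ b) (hf : ContDiff ℝ ∞ f) (hg : ContDiff ℝ ∞ g)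
    (h : ∀ x ∈ Ioo 0 b, x ^ p * dn f x ≤ C * (x ^ q * dn g x)) : Dn p b f ≤ C * Dn q b g := by
  unfold Dn
  rw [← intervalIntegral.integral_const_mul]
  exact integral_mono_Ioo hb (cont_Dn p hf) (continuous_const.mul (cont_Dn q hg)) h

lemma Dn_mono_right (p : ℕ) {b c : ℝ} (hb : 0 ≤ b) (hbc : b ≤ c) (hf : ContDiff ℝ ∞ f) :
    Dn p b f ≤ Dn p c f := by
  unfold Dn
  rw [← intervalIntegral.integral_add_adjacent_intervals (b := b)
    ((cont_Dn p hf).intervalIntegrable 0 b) ((cont_Dn p hf).intervalIntegrable b c)]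
  have : 0 ≤ ∫ x in b..c, x ^ p * dn f x :=
    intervalIntegral.integral_nonneg hbc fun x hx =>
      mul_nonneg (pow_nonneg (hb.trans hx.1) _) (dn_nonneg f x)
  linarith

/-- comparison of weights -/
lemma En_le_of_weight (p : ℕ) {b M : ℝ} (hb : 0 ≤ b) {y z : ℝ → ℝ} (hy : Continuous y)
    (hz : Continuous z) (hf : ContDiff ℝ ∞ f) (h : ∀ x ∈ Ioo 0 b, y x ^ 2 ≤ M * z x ^ 2) :
    En p b y f ≤ M * En p b z f := by
  unfold En
  rw [← intervalIntegral.integral_const_mul]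
  refine integral_mono_Ioo hb (cont_En p hy hf) (continuous_const.mul (cont_En p hz hf))
    fun x hx => ?_
  have h1 : 0 ≤ x ^ (p + 2) * Lop 10 f x ^ 2 := mul_nonneg (pow_nonneg hx.1.le _) (sq_nonneg _)
  have := mul_le_mul_of_nonneg_left (h x hx) h1
  linarith

/-! ### scaling -/

lemma deriv_scale (l : ℝ) (f : ℝ → ℝ) :
    deriv (fun x => f (l * x)) = fun x => l * deriv f (l * x) := by
  funext x
  rw [deriv_comp_mul_left, smul_eq_mul]

lemma Mop_scale (n : ℕ) (l : ℝ) (f : ℝ → ℝ) :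
    Mop n (fun x => f (l * x)) = fun x => Mop n f (l * x) := by
  funext x
  unfold Mop
  rw [deriv_scale, deriv_cmul', deriv_scale l (deriv f)]
  ring

lemma Lop_scale (n : ℕ) (l : ℝ) (f : ℝ → ℝ) :
    Lop n (fun x => f (l * x)) = fun x => l ^ 2 * Lop n f (l * x) := by
  funext x
  unfold Lop
  rw [Mop_scale, deriv_scale, deriv_cmul', deriv_scale l (deriv (Mop n f))]
  ring

lemma Lop_rescale (n : ℕ) (l : ℝ) (f : ℝ → ℝ) :
    Lop n (fun x => l * f (l * x)) = fun x => l ^ 3 * Lop n f (l * x) := by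
  rw [Lop_cmul n l (fun x => f (l * x)), Lop_scale]
  funext x; ring

lemma En_rescale (p : ℕ) (b : ℝ) {l : ℝ} (hl : 0 < l) (y f : ℝ → ℝ) :
    l ^ p * En p (b / l) (fun x => y (l * x)) (fun x => l * f (l * x)) = l ^ 3 * En p b y f := by
  unfold En
  rw [Lop_rescale]
  have h := intervalIntegral.integral_comp_mul_left
    (f := fun x => x ^ (p + 2) * y x ^ 2 * Lop 10 f x ^ 2) (a := 0) (b := b / l) hl.ne'
  rw [mul_zero, mul_div_cancel₀ _ hl.ne', smul_eq_mul] at h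
  have h2 : ∫ x in (0 : ℝ)..b, x ^ (p + 2) * y x ^ 2 * Lop 10 f x ^ 2 =
      l * ∫ x in (0 : ℝ)..b / l, (l * x) ^ (p + 2) * y (l * x) ^ 2 * Lop 10 f (l * x) ^ 2 := by
    rw [h]; field_simp
  rw [h2, ← mul_assoc, ← intervalIntegral.integral_const_mul,
    ← intervalIntegral.integral_const_mul]
  refine intervalIntegral.integral_congr fun x _ => ?_
  simp only
  ring

end Vale.Agent.P264Z
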