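import Vale.Agent.P264Z.E.Sy
import Vale.Agent.P264Z.E.Stab

/-!
# P264: the self-similar solution and the glued background
-/

open scoped ContDiff Topology
open Set Filter MeasureTheory

noncomputable section

namespace Vale.Agent.P264Z

/-- a positive smooth function equal to `z` for `z ≥ 1/4` -/
def ell (z : ℝ) : ℝ := 1 / 8 + (z - 1 / 8) * Real.smoothTransition (8 * z - 1)

/-- the scale factor `(1-t)^(-1/2)` for `t ≤ 3/4` -/
def sc (t : ℝ) : ℝ := (√(ell (1 - t)))⁻¹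

lemma ell_pos (z : ℝ) : 0 < ell z := by
  unfold ell
  rcases le_total z (1 / 8) with h | h
  · rw [Real.smoothTransition.zero_of_nonpos (by linarith)]; norm_num
  · have := mul_nonneg (sub_nonneg.2 h) (Real.smoothTransition.nonneg (8 * z - 1))
    linarith

lemma ell_eq {z : ℝ} (h : 1 / 4 ≤ z) : ell z = z := by
  unfold ell
  rw [Real.smoothTransition.one_of_one_le (by linarith)]; ring

lemma sm_ell : ContDiff ℝ ∞ ell := by
  unfold ell
  exact contDiff_const.add ((contDiff_id.sub contDiff_const).mul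
    (Real.smoothTransition.contDiff.comp ((contDiff_const.mul contDiff_id).sub contDiff_const)))

lemma sm_sc : ContDiff ℝ ∞ sc := by
  unfold sc
  refine ContDiff.inv (ContDiff.sqrt (sm_ell.comp (contDiff_const.sub contDiff_id))
    fun t => (ell_pos _).ne') fun t => (Real.sqrt_pos.2 (ell_pos _)).ne'

lemma sc_eq {t : ℝ} (h : t ≤ 3 / 4) : sc t = (√(1 - t))⁻¹ := by
  unfold sc; rw [ell_eq (by linarith)]

lemma sc_zero : sc 0 = 1 := by rw [sc_eq (by norm_num)]; simp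

lemma sc_eta {l : ℝ} (h : 1 / 2 ≤ l) : sc (1 - l ^ 2) = l⁻¹ := by
  rw [sc_eq (by nlinarith), sub_sub_cancel, Real.sqrt_sq (by linarith)]

lemma sc_bounds {t : ℝ} (h0 : 0 ≤ t) (h : t ≤ 3 / 4) : 1 ≤ sc t ∧ sc t ≤ 2 := by
  rw [sc_eq h]
  have h1 : √(1 - t) ≤ 1 := Real.sqrt_le_one.2 (by linarith)
  have h2 : 1 / 2 ≤ √(1 - t) := Real.le_sqrt_of_sq_le (by linarith)
  refine ⟨(one_le_inv₀ (by linarith)).2 h1, ?_⟩
  rw [inv_le_comm₀ (by linarith) (by norm_num)]
  linarith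

lemma hasDerivAt_sc {t : ℝ} (h : t < 3 / 4) : HasDerivAt sc (sc t ^ 3 / 2) t := by
  have h1 : (0 : ℝ) < 1 - t := by linarith
  have h2 : 0 < √(1 - t) := Real.sqrt_pos.2 h1
  have h3 : HasDerivAt (fun s => (√(1 - s))⁻¹) (sc t ^ 3 / 2) t := by
    have := (((hasDerivAt_id t).const_sub 1).sqrt h1.ne').inv h2.ne'
    refine this.congr_deriv ?_
    rw [sc_eq h.le]
    simp only [id]
    field_simp
  refine h3.congr_of_eventuallyEq ?_
  filter_upwards [Iio_mem_nhds h] with s hs using sc_eq (le_of_lt hs)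

/-- the self-similar solution -/
def mss (σ : ℝ → ℝ) (t x : ℝ) : ℝ := sc t * σ (sc t * x)

/-- the glued background on `[0,4R]` -/
def bg (σ : ℝ → ℝ) (R t x : ℝ) : ℝ := cut R x * mss σ t x + (1 - cut R x) * (1 / (4 * R))

variable {σ : ℝ → ℝ}

lemma sm_mss (hσ : ContDiff ℝ ∞ σ) : Sm (mss σ) :=
  (Sm.ofT sm_sc).mul (hσ.comp ((Sm.ofT sm_sc).mul Sm.x))

lemma sm_bg (hσ : ContDiff ℝ ∞ σ) (R : ℝ) : Sm (bg σ R) :=
  ((Sm.ofX (sm_cut R)).mul (sm_mss hσ)).add
    (Sm.ofX ((contDiff_const.sub (sm_cut R)).mul contDiff_const))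

lemma mss_zero (σ : ℝ → ℝ) : mss σ 0 = σ := by
  funext x; unfold mss; rw [sc_zero]; simp

lemma mss_eta (σ : ℝ → ℝ) {l : ℝ} (h : 1 / 2 ≤ l) (x : ℝ) :
    l * mss σ (1 - l ^ 2) (l * x) = mss σ 0 x := by
  have hl : l ≠ 0 := by linarith
  rw [mss_zero]
  unfold mss
  rw [sc_eta h, ← mul_assoc, ← mul_assoc, mul_inv_cancel₀ hl, inv_mul_cancel₀ hl, one_mul, one_mul]

lemma bg_eta (σ : ℝ → ℝ) (R : ℝ) {l : ℝ} (h : 1 / 2 ≤ l) (x : ℝ) :
    l * bg σ R (1 - l ^ 2) (l * x) = bg σ (R / l) 0 x := by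
  have hl : l ≠ 0 := by linarith
  unfold bg
  rw [cut_scale, ← mss_eta σ h x]
  by_cases hR : R = 0
  · simp [hR]; ring
  · field_simp

lemma bg_eq (σ : ℝ → ℝ) {R x : ℝ} (hR : 0 < R) (hx : x ≤ R) (t : ℝ) : bg σ R t x = mss σ t x := by
  unfold bg; rw [cut_one hR hx]; ring

lemma bg_evEq (σ : ℝ → ℝ) {R x : ℝ} (hR : 0 < R) (hx : x < R) (t : ℝ) :
    bg σ R t =ᶠ[𝓝 x] mss σ t := by
  filter_upwards [Iio_mem_nhds hx] with z hz using bg_eq σ hR (le_of_lt hz) t

lemma yb_bg_eq (σ : ℝ → ℝ) {R x : ℝ} (hR : 0 < R) (hx : x ≤ R) (t : ℝ) :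
    yb (bg σ R) t x = yb (mss σ) t x := by
  unfold yb; rw [bg_eq σ hR hx]

lemma ab_bg_eq (σ : ℝ → ℝ) {R x : ℝ} (hR : 0 < R) (hx : x < R) (t : ℝ) :
    ab (bg σ R) t x = ab (mss σ) t x := by
  unfold ab; rw [(Lop_evEq 10 (bg_evEq σ hR hx t)).eq_of_nhds]

lemma yb_bg (σ : ℝ → ℝ) (R t x : ℝ) :
    yb (bg σ R) t x = cut R x * yb (mss σ) t x + (1 - cut R x) * vw (4 * R) x := by
  unfold yb bg vw; ring

lemma dt_mss (hσ : Shrinker 10 σ) {t x : ℝ} (h0 : 0 ≤ t) (ht : t < 3 / 4) (hx : 0 ≤ x) :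
    dt (mss σ) t x = -(yb (mss σ) t x ^ 2 * Lop 10 (mss σ t) x) := by
  have h1 := hasDerivAt_sc ht
  have h2 := (sm_hasDerivAt hσ.smooth (sc t * x)).comp t (h1.mul_const x)
  have h3 := (h1.mul h2).deriv
  have h4 : Lop 10 (mss σ t) x = sc t ^ 3 * Lop 10 σ (sc t * x) :=
    congrFun (Lop_rescale 10 (sc t) σ) x
  have h5 := hσ.ode (sc t * x) (mul_nonneg (by linarith [(sc_bounds h0 ht.le).1]) hx)
  refine Eq.trans h3 ?_
  rw [h4]
  unfold yb mss
  simp only [Function.comp]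
  have e : sc t ^ 3 / 2 * σ (sc t * x) + sc t * (deriv σ (sc t * x) * (sc t ^ 3 / 2 * x)) =
      sc t ^ 3 / 2 * (σ (sc t * x) + sc t * x * deriv σ (sc t * x)) := by ring
  rw [e, h5]
  ring

lemma dt_bg (hσ : ContDiff ℝ ∞ σ) (R t x : ℝ) : dt (bg σ R) t x = cut R x * dt (mss σ) t x :=
  ((((sm_mss hσ).hasDerivAt_t t x).const_mul (cut R x)).add_const _).deriv

lemma dt_yb {m : ℝ → ℝ → ℝ} (hm : Sm m) (t x : ℝ) : dt (yb m) t x = -(x * dt m t x) :=
  (((hm.hasDerivAt_t t x).const_mul x).const_sub 1).deriv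

lemma res_bg (hσ : Shrinker 10 σ) (R : ℝ) {t x : ℝ} (h0 : 0 ≤ t) (ht : t < 3 / 4) (hx : 0 ≤ x) :
    res (bg σ R) t x = yb (bg σ R) t x * yb (bg σ R) t x * Lop 10 (bg σ R t) x -
      cut R x * (yb (mss σ) t x * yb (mss σ) t x * Lop 10 (mss σ t) x) := by
  unfold res
  rw [dt_bg hσ.smooth, dt_mss hσ h0 ht hx]; ring

lemma res_bg_zero (hσ : Shrinker 10 σ) {R t x : ℝ} (h0 : 0 ≤ t) (ht : t < 3 / 4) (hx : 0 ≤ x)
    (hxR : x < R) : res (bg σ R) t x = 0 := by
  have hR : 0 < R := by linarith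
  rw [res_bg hσ R h0 ht hx, yb_bg_eq σ hR hxR.le, (Lop_evEq 10 (bg_evEq σ hR hxR t)).eq_of_nhds,
    cut_one hR hxR.le]
  ring

/-! ### symbol bounds -/

lemma sy_shr (hσ : Shrinker 10 σ) : ∃ C : ℝ, 0 ≤ C ∧ ∀ x, 0 ≤ x → SyP 6 (-1) σ x C := by
  have key : ∀ j : ℕ, ∃ C : ℝ, 0 ≤ C ∧ (j ≤ 6 → ∀ x, 0 ≤ x →
      |iteratedDeriv j σ x| ≤ C * (1 + x) ^ ((-1 : ℤ) - j)) := by
    intro j
    by_cases hj : j ≤ 6
    swap
    · exact ⟨0, le_rfl, fun h => absurd h hj⟩
    obtain ⟨C1, h1⟩ := hσ.bound j hj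
    have hc : Continuous (iteratedDeriv j σ) := hσ.smooth.continuous_iteratedDeriv j (by norm_cast; simp)
    obtain ⟨C2, h2⟩ := (isCompact_Icc (a := (0 : ℝ)) (b := 1)).exists_bound_of_continuousOn
      hc.continuousOn
    have hC1 : 0 ≤ C1 := le_trans (by positivity) (h1 1 zero_le_one)
    have hC2 : 0 ≤ C2 := le_trans (norm_nonneg _) (h2 0 ⟨le_rfl, zero_le_one⟩)
    refine ⟨2 ^ (j + 1) * (C1 + C2), by positivity, fun _ x hx => ?_⟩
    have e : ((-1 : ℤ) - j) = -((j + 1 : ℕ) : ℤ) := by push_cast; ring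
    have hp : (0 : ℝ) < (1 + x) ^ (j + 1) := by positivity
    rw [e, zpow_neg, zpow_natCast, ← div_eq_mul_inv, le_div_iff₀ hp]
    have ha := abs_nonneg (iteratedDeriv j σ x)
    rcases le_total x 1 with h | h
    · have k1 : (1 + x) ^ (j + 1) ≤ 2 ^ (j + 1) := pow_le_pow_left₀ (by linarith) (by linarith) _
      have k2 : |iteratedDeriv j σ x| ≤ C1 + C2 := (h2 x ⟨hx, h⟩).trans (by linarith)
      rw [mul_comm]
      exact mul_le_mul k1 k2 ha (by positivity)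
    · have k1 : (1 + x) ^ (j + 1) ≤ (2 * x) ^ (j + 1) :=
        pow_le_pow_left₀ (by linarith) (by linarith) _
      calc _ ≤ |iteratedDeriv j σ x| * (2 * x) ^ (j + 1) := mul_le_mul_of_nonneg_left k1 ha
        _ = 2 ^ (j + 1) * (x ^ (j + 1) * |iteratedDeriv j σ x|) := by rw [mul_pow]; ring
        _ ≤ _ := mul_le_mul_of_nonneg_left ((h1 x hx).trans (by linarith)) (by positivity)
  choose C hC0 hC using key
  refine ⟨∑ j ∈ Finset.range 7, C j, Finset.sum_nonneg fun j _ => hC0 j, fun x hx => ?_⟩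
  refine SyP.of_iter fun j hj => (hC j hj x hx).trans ?_
  exact mul_le_mul_of_nonneg_right
    (Finset.single_le_sum (fun j _ => hC0 j) (Finset.mem_range.2 (by omega)))
    (zpow_nonneg (by linarith) _)

lemma sy_cut (h10 : F10) : ∃ C : ℝ, 0 ≤ C ∧ ∀ R x, 1 ≤ R → 0 ≤ x → SyP 6 0 (cut R) x C := by
  obtain ⟨C, hC, h⟩ := h10
  refine ⟨2 ^ 6 * C, by positivity, fun R x hR hx => ?_⟩
  rcases lt_or_ge x R with h1 | h1
  · have e : (fun _ => (1 : ℝ)) =ᶠ[𝓝 x] cut R := by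
      filter_upwards [Iio_mem_nhds h1] with z hz using (cut_one (by linarith) (le_of_lt hz)).symm
    refine ((SyP.const hx 1).congr e).mono hx ?_
    rw [abs_one]; linarith
  · refine SyP.of_iter fun j hj => ?_
    have hp : (0 : ℝ) < (1 + x) ^ j := by positivity
    rw [zero_sub, zpow_neg, zpow_natCast, ← div_eq_mul_inv, le_div_iff₀ hp]
    have k1 : (1 + x) ^ j ≤ (2 * x) ^ j := pow_le_pow_left₀ (by linarith) (by linarith) _
    have k2 : (2 : ℝ) ^ j ≤ 2 ^ 6 := pow_le_pow_right₀ (by norm_num) hj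
    calc _ ≤ |iteratedDeriv j (cut R) x| * (2 * x) ^ j :=
          mul_le_mul_of_nonneg_left k1 (abs_nonneg _)
      _ = 2 ^ j * (x ^ j * |iteratedDeriv j (cut R) x|) := by rw [mul_pow]; ring
      _ ≤ _ := mul_le_mul k2 (h R x j (by linarith) hx hj) (by positivity) (by positivity)

/-- the index set of the uniform bounds -/
structure Ix where
  R : ℝ
  t : ℝ
  x : ℝ
  hR : 1 ≤ R
  h0 : 0 ≤ t
  ht : t < 3 / 4
  hx : 0 ≤ x
  hb : x ≤ 4 * R

lemma bg_bounds (h10 : F10) (hσ : Shrinker 10 σ) : ∃ K : ℝ, 1 ≤ K ∧ ∀ i : Ix,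
    Tb (yb (bg σ i.R) i.t) i.x K ∧ Tb (ab (bg σ i.R) i.t) i.x (K / (1 + i.x) ^ 2) ∧
    |yb (mss σ) i.t i.x| ≤ K ∧ (1 + i.x) * |ab (mss σ) i.t i.x| ≤ K ∧
    Tb (fun z => yb (bg σ i.R) i.t z * yb (bg σ i.R) i.t z * Lop 10 (bg σ i.R i.t) z -
      cut i.R z * (yb (mss σ) i.t z * yb (mss σ) i.t z * Lop 10 (mss σ i.t) z)) i.x
      (K / (1 + i.x) ^ 3) := by
  have hX : ∀ i : Ix, 0 ≤ i.x := fun i => i.hx
  have sm := sm_mss hσ.smooth
  have sb := sm_bg hσ.smooth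
  have m1 : Sy 6 (-1) (fun i : Ix => mss σ i.t) (fun i => i.x) := by
    obtain ⟨C, hC, h⟩ := sy_shr hσ
    have : Sy 6 (-1) (fun i : Ix => fun z => σ (sc i.t * z)) (fun i => i.x) :=
      ⟨2 ^ 6 * C, by positivity, fun i => SyP.scale i.hx hC (sc_bounds i.h0 i.ht.le).1
        (sc_bounds i.h0 i.ht.le).2 (by norm_num)
        (h _ (mul_nonneg (by linarith [(sc_bounds i.h0 i.ht.le).1]) i.hx))⟩
    exact this.cmul' hX (K := 2) (fun i => by
      rw [abs_of_nonneg (by linarith [(sc_bounds i.h0 i.ht.le).1])]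
      exact (sc_bounds i.h0 i.ht.le).2) (by norm_num)
  have c1 : Sy 6 0 (fun i : Ix => cut i.R) (fun i => i.x) := by
    obtain ⟨C, hC, h⟩ := sy_cut h10
    exact ⟨C, hC, fun i => h _ _ i.hR i.hx⟩
  have k1 : Sy 6 (-1) (fun i : Ix => fun _ => 1 / (4 * i.R)) (fun i => i.x) := by
    refine ⟨2, by norm_num, fun i => ⟨?_, SyP.of_zero i.hx (by norm_num) (by simp)⟩⟩
    have := i.hR
    have := i.hx
    have := i.hb
    rw [abs_of_nonneg (by positivity), zpow_neg, zpow_one, ← div_eq_mul_inv,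
      div_le_div_iff₀ (by linarith) (by linarith)]
    linarith
  have b1 : Sy 6 (-1) (fun i : Ix => bg σ i.R i.t) (fun i => i.x) := by
    have a1 := c1.mul hX (fun i => sm_cut _) (fun i => sm.slice _) m1
    have a2 := (((Sy.const hX 1).sub (fun _ => contDiff_const) (fun i => sm_cut _) c1).mul hX
      (fun i => contDiff_const.sub (sm_cut _)) (fun i => contDiff_const) k1)
    exact a1.add (fun i => (sm_cut _).mul (sm.slice _))
      (fun i => (contDiff_const.sub (sm_cut _)).mul contDiff_const) a2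
  have gen : ∀ F : Ix → ℝ → ℝ → ℝ, (∀ i, Sm (F i)) → Sy 6 (-1) (fun i => F i i.t) (fun i => i.x) →
      Sy 2 0 (fun i => yb (F i) i.t) (fun i => i.x) ∧
      Sy 2 (-2) (fun i => ab (F i) i.t) (fun i => i.x) ∧
      Sy 2 (-3) (fun i z => yb (F i) i.t z * yb (F i) i.t z * Lop 10 (F i i.t) z)
        (fun i => i.x) := by
    intro F hF h
    have y1 : Sy 2 0 (fun i => yb (F i) i.t) (fun i => i.x) :=
      (Sy.const hX 1).sub (fun _ => contDiff_const) (fun i => contDiff_id.mul ((hF i).slice _))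
        ((h.of_le (by norm_num)).xmul hX fun i => (hF i).slice _)
    have l1 := Sy.Lop (k := 2) 10 hX (fun i => (hF i).slice _) h
    refine ⟨y1, l1.xmul hX fun i => sm_Lop 10 ((hF i).slice _), ?_⟩
    exact (y1.mul hX (fun i => (hF i).yb.slice _) (fun i => (hF i).yb.slice _) y1).mul hX
      (fun i => ((hF i).yb.slice _).mul ((hF i).yb.slice _)) (fun i => sm_Lop 10 ((hF i).slice _)) l1
  obtain ⟨p1, p2, p3⟩ := gen (fun i => bg σ i.R) (fun i => sb _) b1
  obtain ⟨q1, q2, q3⟩ := gen (fun _ => mss σ) (fun _ => sm) m1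
  have sw : ∀ {m : ℝ → ℝ → ℝ}, Sm m → ∀ t, ContDiff ℝ ∞
      fun z => yb m t z * yb m t z * Lop 10 (m t) z :=
    fun hm t => ((hm.yb.slice t).mul (hm.yb.slice t)).mul (sm_Lop 10 (hm.slice t))
  have r := p3.sub (fun i => sw (sb _) _) (fun i => (sm_cut _).mul (sw sm _))
    ((c1.of_le (by norm_num)).mul hX (fun i => sm_cut _) (fun i => sw sm _) q3)
  obtain ⟨A1, hA1, a1⟩ := p1.tb hX
  obtain ⟨A2, hA2, a2⟩ := p2.tb hX
  obtain ⟨A3, hA3, a3⟩ := q1.tb hX
  obtain ⟨A4, hA4, a4⟩ := (q2.weight hX (show (-2 : ℤ) ≤ -1 by norm_num)).tb hX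
  obtain ⟨A5, hA5, a5⟩ := r.tb hX
  refine ⟨1 + A1 + A2 + A3 + A4 + A5, by linarith, fun i => ⟨(a1 i).mono ?_, (a2 i).mono ?_,
    (a3 i).1.trans ?_, ?_, (a5 i).mono ?_⟩⟩
  · rw [zpow_zero]; linarith
  · rw [zpow_neg, ← div_eq_mul_inv]
    have := i.hx
    exact div_le_div_of_nonneg_right (by linarith) (by positivity)
  · rw [zpow_zero]; linarith
  · have := (a4 i).1
    have hx := i.hx
    rw [zpow_neg, zpow_one, ← div_eq_mul_inv, le_div_iff₀ (by linarith)] at this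
    linarith
  · rw [zpow_neg, ← div_eq_mul_inv]
    have := i.hx
    exact div_le_div_of_nonneg_right (by linarith) (by positivity)

/-- the glued background satisfies all the bounds, uniformly in `R` -/
theorem bg_Bg (h10 : F10) (hσ : Shrinker 10 σ) : ∃ M : ℝ, 1 ≤ M ∧ ∀ R T : ℝ, 1 ≤ R → T < 3 / 4 →
    Bg (4 * R) T M (M / R ^ 3) (M / R ^ 2) (bg σ R) := by
  obtain ⟨K, hK, h⟩ := bg_bounds h10 hσ
  obtain ⟨c, hc, hpos⟩ := hσ.pos
  have hK3 : 1 ≤ K ^ 3 := one_le_pow₀ hK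
  have hK2 : 1 ≤ K ^ 2 := one_le_pow₀ hK
  set M : ℝ := 1 + 1 / c + 2 * K + K ^ 3 / c + 12 * K ^ 2 with hM
  have c1 : 0 < 1 / c := by positivity
  have c2 : 0 < K ^ 3 / c := by positivity
  refine ⟨M, by linarith, fun R T hR hT => ?_⟩
  have hR0 : 0 < R := by linarith
  have hb : 0 < 4 * R := by linarith
  have sb := sm_bg hσ.smooth R
  have sm := sm_mss hσ.smooth
  have ylow : ∀ t ∈ Icc 0 T, ∀ x, 0 ≤ x → c ≤ yb (mss σ) t x := fun t ht x hx => by
    have := hpos (sc t * x) (mul_nonneg (by linarith [(sc_bounds ht.1 (by linarith [ht.2])).1]) hx)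
    unfold yb mss
    linarith
  have ev : ∀ t, bg σ R t =ᶠ[𝓝 (4 * R)] fun _ => 1 / (4 * R) := fun t => by
    filter_upwards [Ioi_mem_nhds (show 2 * R < 4 * R by linarith)] with z hz
    unfold bg
    rw [cut_zero hR0 (le_of_lt hz)]; ring
  have rb : ∀ t ∈ Icc 0 T, ∀ p : ℕ, p ≤ 5 → Dn p (4 * R) (res (bg σ R) t) ≤ M / R ^ (5 - p) := by
    intro t ht p hp
    have ht' : t < 3 / 4 := by linarith [ht.2]
    have k1 : Dn p (4 * R) (res (bg σ R) t) ≤ ∫ _ in (0 : ℝ)..4 * R, 3 * K ^ 2 / R ^ (6 - p) := by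
      refine integral_mono_Ioo hb.le (cont_Dn p (sb.res.slice t)) continuous_const fun x hx => ?_
      rcases lt_or_ge x R with h1 | h1
      · have e : res (bg σ R) t =ᶠ[𝓝 x] fun _ => 0 := by
          filter_upwards [Ioo_mem_nhds hx.1 h1] with z hz using res_bg_zero hσ ht.1 ht' hz.1.le hz.2
        rw [dn_evEq e]
        have : dn (fun _ => (0 : ℝ)) x = 0 := by simp [dn]
        rw [this, mul_zero]
        positivity
      · have e : res (bg σ R) t =ᶠ[𝓝 x] fun z =>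
            yb (bg σ R) t z * yb (bg σ R) t z * Lop 10 (bg σ R t) z -
              cut R z * (yb (mss σ) t z * yb (mss σ) t z * Lop 10 (mss σ t) z) := by
          filter_upwards [Ioi_mem_nhds hx.1] with z hz using res_bg hσ R ht.1 ht' (le_of_lt hz)
        rw [dn_evEq e]
        have k := (h ⟨R, t, x, hR, ht.1, ht', hx.1.le, hx.2.le⟩).2.2.2.2.dn_le hx.1.le
        refine (mul_le_mul_of_nonneg_left k (pow_nonneg hx.1.le p)).trans ?_
        have hx0 := hx.1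
        simp only
        have e2 : x ^ p * (3 * (K / (1 + x) ^ 3) ^ 2) = 3 * K ^ 2 * x ^ p / (1 + x) ^ 6 := by
          rw [div_pow]; ring
        rw [e2, div_le_div_iff₀ (by positivity) (by positivity), mul_assoc]
        refine mul_le_mul_of_nonneg_left ?_ (by positivity)
        calc x ^ p * R ^ (6 - p) ≤ (1 + x) ^ p * (1 + x) ^ (6 - p) := by
              gcongr <;> linarith
          _ = _ := by rw [← pow_add]; congr 1; omega
    rw [intervalIntegral.integral_const, smul_eq_mul, sub_zero] at k1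
    refine k1.trans ?_
    have e3 : R ^ (6 - p) = R * R ^ (5 - p) := by rw [← pow_succ']; congr 1; omega
    have e4 : 4 * R * (3 * K ^ 2 / R ^ (6 - p)) = 12 * K ^ 2 / R ^ (5 - p) := by
      rw [e3]; field_simp; norm_num
    rw [e4]
    exact div_le_div_of_nonneg_right (by linarith) (by positivity)
  refine ⟨sb, fun t _ => (ev t).eq_of_nhds, fun t _ => ?_, fun t ht => ⟨sb.yb.slice t,
    sb.ab.slice t, fun x hx => ?_, fun x hx => ?_⟩, fun t ht x hx => ?_,
    fun t ht => rb t ht 2 (by norm_num), fun t ht => rb t ht 3 (by norm_num)⟩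
  · rw [(ev t).deriv.eq_of_nhds]; simp
  · have ht' : t < 3 / 4 := by linarith [ht.2]
    obtain ⟨k1, -, k3, -, -⟩ := h ⟨R, t, x, hR, ht.1, ht', hx.1, hx.2⟩
    simp only at k1 k3
    have v0 := vw_nonneg hb hx.2
    have v1 := vw_le_one hb hx.1
    have x0 := cut_nonneg R x
    have x1 := cut_le_one R x
    have y0 := ylow t ht x hx.1
    refine ⟨?_, ?_, k1.2.1.trans (by linarith), k1.2.2.trans (by linarith)⟩
    · rw [yb_bg, div_le_iff₀ (by linarith)]
      have a1 : 1 ≤ yb (mss σ) t x * M := by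
        have : 1 / c ≤ M := by linarith
        rw [div_le_iff₀ hc] at this
        nlinarith
      have a2 : vw (4 * R) x ≤ vw (4 * R) x * M := by nlinarith
      nlinarith [mul_le_mul_of_nonneg_left (v1.trans a1) x0,
        mul_le_mul_of_nonneg_left a2 (sub_nonneg.2 x1)]
    · rw [yb_bg]
      have a2 : vw (4 * R) x ≤ M * vw (4 * R) x := by nlinarith
      rcases le_total x (2 * R) with h1 | h1
      · have a3 := half_le_vw hb (show x ≤ 4 * R / 2 by linarith)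
        have a1 : yb (mss σ) t x ≤ M * vw (4 * R) x := by
          have := (le_abs_self _).trans k3
          nlinarith
        nlinarith [mul_le_mul_of_nonneg_left a1 x0,
          mul_le_mul_of_nonneg_left a2 (sub_nonneg.2 x1)]
      · rw [cut_zero hR0 h1]; linarith
  · have ht' : t < 3 / 4 := by linarith [ht.2]
    refine (h ⟨R, t, x, hR, ht.1, ht', hx.1, hx.2⟩).2.1.mono ?_
    have := hx.1
    exact div_le_div_of_nonneg_right (by linarith) (by positivity)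
  · have ht' : t < 3 / 4 := by linarith [ht.2]
    obtain ⟨-, -, k3, k4, -⟩ := h ⟨R, t, x, hR, ht.1, ht', hx.1, hx.2⟩
    simp only at k3 k4
    have v0 := vw_nonneg hb hx.2
    have x0 := cut_nonneg R x
    have x1 := cut_le_one R x
    have y0 := ylow t ht x hx.1
    have e : dt (yb (bg σ R)) t x = cut R x * (yb (mss σ) t x ^ 2 * ab (mss σ) t x) := by
      rw [dt_yb sb, dt_bg hσ.smooth, dt_mss hσ ht.1 ht' hx.1]
      unfold ab; ring
    rw [e, abs_mul, abs_mul, abs_of_nonneg x0, abs_pow, yb_bg]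
    have a1 : |yb (mss σ) t x| ^ 2 * ((1 + x) * |ab (mss σ) t x|) ≤ K ^ 2 * K :=
      mul_le_mul (pow_le_pow_left₀ (abs_nonneg _) k3 2) k4
        (mul_nonneg (by linarith [hx.1]) (abs_nonneg _)) (by positivity)
    have a2 : K ^ 2 * K ≤ M * yb (mss σ) t x := by
      have : K ^ 3 / c ≤ M := by linarith
      rw [div_le_iff₀ hc] at this
      nlinarith
    have a3 := mul_le_mul_of_nonneg_left (a1.trans a2) x0
    have a4 : 0 ≤ M * ((1 - cut R x) * vw (4 * R) x) :=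
      mul_nonneg (by linarith) (mul_nonneg (by linarith) v0)
    nlinarith

end Vale.Agent.P264Z
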