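import Vale.Agent.P264Z.E.Bg
import Vale.Agent.P264Z.E.Frc

/-!
# P264: a solution is a background; continuous dependence on the initial data
-/

open scoped ContDiff Topology
open Set Filter MeasureTheory

noncomputable section

namespace Vale.Agent.P264Z

/-- the profile is comparable with the degenerate weight -/
lemma Sol.yb_cmp {b T : ℝ} {m : ℝ → ℝ → ℝ} (hm : Sol 10 b T m) (hb : 0 < b) (hT : 0 < T) :
    ∃ M : ℝ, 1 ≤ M ∧ ∀ t ∈ Icc 0 T, ∀ x ∈ Icc 0 b,
      vw b x / M ≤ yb m t x ∧ yb m t x ≤ M * vw b x := by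
  have hs : Sm m := hm.smooth
  have hy := hs.yb
  set κ : ℝ × ℝ → ℝ := fun p =>
    -b * ∫ s in (0 : ℝ)..1, deriv (yb m p.1) (p.2 + s * (b - p.2)) with hκ
  have hκc : Continuous κ := by
    refine continuous_const.mul
      (intervalIntegral.continuous_parametric_intervalIntegral_of_continuous'
        (f := fun (p : ℝ × ℝ) (s : ℝ) => deriv (yb m p.1) (p.2 + s * (b - p.2))) ?_ 0 1)
    exact hy.dx.cont.comp (f := fun q : (ℝ × ℝ) × ℝ => (q.1.1, q.1.2 + q.2 * (b - q.1.2)))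
      (by fun_prop)
  have hend : ∀ t ∈ Icc 0 T, yb m t b = 0 := fun t ht => by
    unfold yb; rw [(hm.adm t ht).val]; field_simp; ring
  have hfac : ∀ t ∈ Icc 0 T, ∀ x, yb m t x = κ (t, x) * vw b x := by
    intro t ht x
    have h1 : ∀ s : ℝ, HasDerivAt (fun s => yb m t (x + s * (b - x)))
        (deriv (yb m t) (x + s * (b - x)) * (b - x)) s := fun s =>
      (sm_hasDerivAt (hy.slice t) _).comp s
        (by simpa using ((hasDerivAt_id s).mul_const (b - x)).const_add x)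
    have h2 := intervalIntegral.integral_eq_sub_of_hasDerivAt (a := 0) (b := 1)
      (fun s _ => h1 s) (Continuous.intervalIntegrable (by
        exact ((sm_deriv (hy.slice t)).continuous.comp (by fun_prop)).mul continuous_const) 0 1)
    rw [intervalIntegral.integral_mul_const] at h2
    simp only [one_mul, zero_mul, add_zero, add_sub_cancel] at h2
    rw [hend t ht] at h2
    simp only [hκ, vw]
    field_simp
    linarith
  have hpos : ∀ p ∈ Icc 0 T ×ˢ Icc 0 b, 0 < κ p := by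
    rintro ⟨t, x⟩ ⟨ht, hx⟩
    simp only at ht hx
    rcases eq_or_lt_of_le hx.2 with h | h
    · subst h
      have h1 : deriv (yb m t) x = -(1 / x) := by
        have := ((hasDerivAt_id x).mul (sm_hasDerivAt (hs.slice t) x)).const_sub 1
        refine Eq.trans this.deriv ?_
        simp [(hm.adm t ht).val, (hm.adm t ht).der]
      simp only [hκ, sub_self, mul_zero, add_zero, h1, intervalIntegral.integral_const,
        sub_zero, smul_eq_mul, one_mul]
      field_simp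
      norm_num
    · have h1 : 0 < yb m t x := by
        unfold yb; linarith [(hm.adm t ht).pos x hx.1 h]
      have h2 : 0 < vw b x := by
        unfold vw
        have : x / b < 1 := (div_lt_one hb).2 h
        linarith
      rw [hfac t ht x] at h1
      exact (pos_iff_pos_of_mul_pos h1).2 h2
  have hK : IsCompact (Icc (0 : ℝ) T ×ˢ Icc (0 : ℝ) b) := isCompact_Icc.prod isCompact_Icc
  obtain ⟨p, hp, hmin⟩ := hK.exists_isMinOn ⟨(0, 0), ⟨le_rfl, hT.le⟩, le_rfl, hb.le⟩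
    hκc.continuousOn
  obtain ⟨C, hC⟩ := hK.exists_bound_of_continuousOn hκc.continuousOn
  have hc := hpos p hp
  have hC0 : 0 ≤ C := (norm_nonneg _).trans (hC p hp)
  have hc1 : 0 < 1 / κ p := by positivity
  refine ⟨1 + C + 1 / κ p, by linarith, fun t ht x hx => ?_⟩
  have hv := vw_nonneg hb hx.2
  have h1 : κ p ≤ κ (t, x) := hmin (a := (t, x)) ⟨ht, hx⟩
  have h2 : κ (t, x) ≤ C := (le_abs_self _).trans (hC (t, x) ⟨ht, hx⟩)
  rw [hfac t ht x]
  constructor
  · rw [div_le_iff₀ (by linarith)]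
    have h3 : 1 ≤ κ (t, x) * (1 / κ p) := by
      rw [mul_one_div, le_div_iff₀ hc]; linarith
    have h4 : 1 ≤ κ (t, x) * (1 + C + 1 / κ p) := by nlinarith
    nlinarith
  · nlinarith

/-- a solution is a background without residual -/
theorem Sol.bg {b T : ℝ} {m : ℝ → ℝ → ℝ} (hm : Sol 10 b T m) (hb : 0 < b) (hT : 0 < T) :
    ∃ M : ℝ, 1 ≤ M ∧ Bg b T M 0 0 m := by
  have hs : Sm m := hm.smooth
  obtain ⟨M0, hM0, h0⟩ := hm.yb_cmp hb hT
  obtain ⟨C1, hC1, h1⟩ := hs.yb.dx.bdd 0 T 0 b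
  obtain ⟨C2, hC2, h2⟩ := hs.yb.dx.dx.bdd 0 T 0 b
  obtain ⟨A0, hA0, a0⟩ := hs.ab.bdd 0 T 0 b
  obtain ⟨A1, hA1, a1⟩ := hs.ab.dx.bdd 0 T 0 b
  obtain ⟨A2, hA2, a2⟩ := hs.ab.dx.dx.bdd 0 T 0 b
  obtain ⟨A3, hA3, a3⟩ := (hs.yb.mul hs.ab).bdd 0 T 0 b
  set K : ℝ := A0 + b * A1 + b ^ 2 * A2 with hK
  have k1 : 0 ≤ b * C1 := by positivity
  have k2 : 0 ≤ b ^ 2 * C2 := by positivity
  have k3 : 0 ≤ (1 + b) ^ 2 * K := by positivity
  have k4 : 0 ≤ (1 + b) * A3 := by positivity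
  have k5 : 0 ≤ b * A1 := by positivity
  have k6 : 0 ≤ b ^ 2 * A2 := by positivity
  set M : ℝ := M0 + b * C1 + b ^ 2 * C2 + (1 + b) ^ 2 * K + (1 + b) * A3 with hM
  have hres : ∀ t ∈ Icc 0 T, ∀ p : ℕ, Dn p b (res m t) ≤ 0 := by
    intro t ht p
    rw [Dn_congr p hb.le (g := fun _ => 0) fun x hx => by
      unfold res yb
      rw [hm.pde' hb hT t ht x (Ioo_subset_Icc_self hx)]; ring]
    simp [Dn, dn]
  refine ⟨M, by linarith, hs, fun t ht => (hm.adm t ht).val, fun t ht => (hm.adm t ht).der,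
    fun t ht => ⟨hs.yb.slice t, hs.ab.slice t, fun x hx => ?_, fun x hx => ?_⟩,
    fun t ht x hx => ?_, fun t ht => hres t ht 2, fun t ht => hres t ht 3⟩
  · have hv := vw_nonneg hb hx.2
    obtain ⟨e1, e2⟩ := h0 t ht x hx
    refine ⟨le_trans ?_ e1, e2.trans ?_, ?_, ?_⟩
    · exact div_le_div_of_nonneg_left hv (by linarith) (by linarith)
    · exact mul_le_mul_of_nonneg_right (by linarith) hv
    · have : x * |deriv (yb m t) x| ≤ b * C1 :=
        mul_le_mul hx.2 (h1 t ht x hx) (abs_nonneg _) hb.le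
      linarith
    · have : x ^ 2 * |deriv (deriv (yb m t)) x| ≤ b ^ 2 * C2 :=
        mul_le_mul (pow_le_pow_left₀ hx.1 hx.2 2) (h2 t ht x hx) (abs_nonneg _) (by positivity)
      linarith
  · have hx0 := hx.1
    have e : K ≤ M / (1 + x) ^ 2 := by
      rw [le_div_iff₀ (by positivity)]
      have : (1 + x) ^ 2 ≤ (1 + b) ^ 2 := pow_le_pow_left₀ (by linarith) (by linarith [hx.2]) 2
      have : K * (1 + x) ^ 2 ≤ K * (1 + b) ^ 2 := mul_le_mul_of_nonneg_left this (by positivity)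
      linarith
    refine Tb.mono ⟨?_, ?_, ?_⟩ e
    · linarith [a0 t ht x hx]
    · have : x * |deriv (ab m t) x| ≤ b * A1 :=
        mul_le_mul hx.2 (a1 t ht x hx) (abs_nonneg _) hb.le
      linarith
    · have : x ^ 2 * |deriv (deriv (ab m t)) x| ≤ b ^ 2 * A2 :=
        mul_le_mul (pow_le_pow_left₀ hx.1 hx.2 2) (a2 t ht x hx) (abs_nonneg _) (by positivity)
      linarith
  · have y0 : 0 ≤ yb m t x :=
      (div_nonneg (vw_nonneg hb hx.2) (by linarith)).trans (h0 t ht x hx).1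
    have e : dt (yb m) t x = yb m t x * ab m t x * yb m t x := by
      rw [dt_yb hs, hm.pde' hb hT t ht x hx]
      unfold yb ab; ring
    rw [e, abs_mul, abs_of_nonneg y0, ← mul_assoc]
    refine mul_le_mul_of_nonneg_right ?_ y0
    have : (1 + x) * |yb m t x * ab m t x| ≤ (1 + b) * A3 :=
      mul_le_mul (by linarith [hx.2]) (a3 t ht x hx) (abs_nonneg _) (by linarith)
    linarith

/-- the energy of the cut-off function -/
lemma En_cut_le (h11 : F11) {c B : ℝ} (hB : 0 < B) (h4 : 4 * B ≤ c) {Y : ℝ → ℝ}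
    (hY : Continuous Y) : ∃ K : ℝ, 0 < K ∧ ∀ u : ℝ → ℝ, ContDiff ℝ ∞ u → u c = 0 → deriv u c = 0 →
      En 2 c Y (fun x => cut B x * u x) ≤ K * (En 2 c (vw c) u + En 3 c (vw c) u) := by
  obtain ⟨C, hC, h11⟩ := h11
  have hc : 0 < c := by linarith
  obtain ⟨Y0, hY0⟩ := (isCompact_Icc (a := (0 : ℝ)) (b := c)).exists_bound_of_continuousOn
    hY.continuousOn
  refine ⟨(Y0 ^ 2 + 1) * (8 + 2 * (C / B)), by positivity, fun u hu h0 h1 => ?_⟩
  have e2 := En_nonneg 2 hc.le (vw c) u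
  have e3 := En_nonneg 3 hc.le (vw c) u
  have k1 := (h11 c B u hB h4 hu h0 h1).1
  have c1 := cont_En 2 (sm_vw c).continuous hu
  have c2 : Continuous fun x => x ^ 4 * com B u x ^ 2 :=
    (continuous_pow 4).mul ((sm_com B hu).continuous.pow 2)
  have k2 : En 2 c Y (fun x => cut B x * u x) ≤
      (Y0 ^ 2 + 1) * (8 * En 2 c (vw c) u + 2 * ∫ x in (0 : ℝ)..c, x ^ 4 * com B u x ^ 2) := by
    unfold En
    have d1 : Continuous fun x => 8 * (x ^ (2 + 2) * vw c x ^ 2 * Lop 10 u x ^ 2) :=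
      continuous_const.mul c1
    have d2 : Continuous fun x => 2 * (x ^ 4 * com B u x ^ 2) := continuous_const.mul c2
    rw [← intervalIntegral.integral_const_mul, ← intervalIntegral.integral_const_mul,
      ← int_add d1 d2, ← intervalIntegral.integral_const_mul]
    refine integral_mono_Ioo hc.le (cont_En 2 hY ((sm_cut B).mul hu))
      (continuous_const.mul (d1.add d2)) fun x hx => ?_
    have hx4 : 0 ≤ x ^ 4 := by positivity
    have y1 : Y x ^ 2 ≤ Y0 ^ 2 + 1 := by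
      have := hY0 x (Ioo_subset_Icc_self hx)
      rw [Real.norm_eq_abs] at this
      have := pow_le_pow_left₀ (abs_nonneg _) this 2
      rw [sq_abs] at this
      linarith
    have y2 : cut B x ^ 2 ≤ 4 * vw c x ^ 2 := by
      rcases le_total x (2 * B) with h | h
      · have := half_le_vw hc (show x ≤ c / 2 by linarith)
        have := cut_le_one B x
        have := cut_nonneg B x
        nlinarith
      · rw [cut_zero hB h]; nlinarith [sq_nonneg (vw c x)]
    have e : Lop 10 (fun z => cut B z * u z) x = cut B x * Lop 10 u x + com B u x := by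
      unfold com; ring
    have y3 : Lop 10 (fun z => cut B z * u z) x ^ 2 ≤
        8 * (vw c x ^ 2 * Lop 10 u x ^ 2) + 2 * com B u x ^ 2 := by
      rw [e]
      nlinarith [sq_nonneg (cut B x * Lop 10 u x - com B u x),
        mul_le_mul_of_nonneg_right y2 (sq_nonneg (Lop 10 u x))]
    have y4 := mul_le_mul y1 y3 (sq_nonneg _) (by positivity)
    have y5 := mul_le_mul_of_nonneg_left y4 hx4
    simp only [show 2 + 2 = 4 from rfl]
    nlinarith
  refine k2.trans (le_trans ?_ (le_of_eq (mul_assoc _ _ _).symm))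
  refine mul_le_mul_of_nonneg_left ?_ (by positivity)
  have : 0 ≤ C / B := by positivity
  nlinarith

/-- continuous dependence on the initial data, after rescaling and cutting off -/
theorem contCut (H : FAll) : ContCut := by
  intro b μ B τ hb hμ hB h4 hτ Y hY m₀ h₀ η hη
  obtain ⟨M, hM, hbg⟩ := h₀.bg hb one_pos
  obtain ⟨C, δ, hC, hδ, hst⟩ := stab H M hM
  obtain ⟨K, hK, hcut⟩ := En_cut_le H.f11 hB h4 hY
  set L : ℝ := K * ((μ + 1) * (M ^ 2 * ((C + 1) * M ^ 2))) with hL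
  have hL0 : 0 < L := by positivity
  refine ⟨min (δ / M ^ 2) (η / (4 * L)), lt_min (by positivity) (by positivity),
    fun m hm hρ => ?_⟩
  have hs : Sm m := hm.smooth
  have hd := hs.df hbg.sm
  set ρ := En 2 b (fun _ => 1) (df m m₀ 0) + En 3 b (fun _ => 1) (df m m₀ 0) with hρd
  have h00 : (0 : ℝ) ∈ Icc (0 : ℝ) 1 := ⟨le_rfl, zero_le_one⟩
  have w0 : ∀ p : ℕ, En p b (yb m₀ 0) (df m m₀ 0) ≤ M ^ 2 * En p b (fun _ => 1) (df m m₀ 0) :=
    fun p => En_le_of_weight p hb.le (hbg.sm.yb.slice 0).continuous continuous_const (hd.slice 0)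
      fun x hx => by
        have := ((hbg.wt 0 h00).tby hb hM (Ioo_subset_Icc_self hx)).1
        have := pow_le_pow_left₀ (abs_nonneg _) this 2
        rw [sq_abs] at this
        linarith
  have n2 := En_nonneg 2 hb.le (yb m₀ 0) (df m m₀ 0)
  have n3 := En_nonneg 3 hb.le (yb m₀ 0) (df m m₀ 0)
  have s0 : En 2 b (yb m₀ 0) (df m m₀ 0) + En 3 b (yb m₀ 0) (df m m₀ 0) ≤ M ^ 2 * ρ := by
    rw [hρd, mul_add]; linarith [w0 2, w0 3]
  have hM2 : 0 < M ^ 2 := by positivity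
  have s1 : M ^ 2 * ρ ≤ δ := by
    have := hρ.trans (min_le_left _ _)
    rwa [le_div_iff₀ hM2, mul_comm] at this
  obtain ⟨-, t2, -, t3⟩ := hst b 1 0 0 m₀ m hb one_pos le_rfl le_rfl le_rfl hbg hm
    (by linarith) τ hτ
  have i3 : 0 ≤ ∫ s in (0 : ℝ)..τ, Dn 3 b (Wf (yb m₀ s) (df m m₀ s)) :=
    intervalIntegral.integral_nonneg hτ.1 fun s _ => Dn_nonneg 3 hb.le _
  have hρ0 : 0 ≤ M ^ 2 * ρ := by linarith
  have u2 : En 2 b (yb m₀ τ) (df m m₀ τ) ≤ (C + 1) * M ^ 2 * ρ := by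
    have : C * (En 2 b (yb m₀ 0) (df m m₀ 0) + 0) ≤ C * (M ^ 2 * ρ) :=
      mul_le_mul_of_nonneg_left (by linarith) (by linarith)
    nlinarith
  have u3 : En 3 b (yb m₀ τ) (df m m₀ τ) ≤ (C + 1) * M ^ 2 * ρ := by
    have : C * (En 2 b (yb m₀ 0) (df m m₀ 0) + 0 + 0) ≤ C * (M ^ 2 * ρ) :=
      mul_le_mul_of_nonneg_left (by linarith) (by linarith)
    nlinarith
  have v2 := ((hbg.wt τ hτ).En_v hb hM (hd.slice τ) 2).trans
    (mul_le_mul_of_nonneg_left u2 hM2.le)
  have v3 := ((hbg.wt τ hτ).En_v hb hM (hd.slice τ) 3).trans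
    (mul_le_mul_of_nonneg_left u3 hM2.le)
  have hvw : vw (b / μ) = fun x => vw b (μ * x) := by
    funext x; unfold vw; field_simp
  obtain ⟨e0, e1⟩ := df_end hm hbg hτ
  have hbμ : μ * (b / μ) = b := by field_simp
  have hu : ContDiff ℝ ∞ fun x => μ * df m m₀ τ (μ * x) :=
    contDiff_const.mul ((hd.slice τ).comp (contDiff_const.mul contDiff_id))
  have k := hcut (fun x => μ * df m m₀ τ (μ * x)) hu (by simp only [hbμ, e0, mul_zero]) (by
    rw [deriv_cmul', deriv_scale]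
    simp only [hbμ, e1, mul_zero])
  have r2 := En_rescale 2 b hμ (vw b) (df m m₀ τ)
  have r3 := En_rescale 3 b hμ (vw b) (df m m₀ τ)
  rw [← hvw] at r2 r3
  have q2 : En 2 (b / μ) (vw (b / μ)) (fun x => μ * df m m₀ τ (μ * x)) =
      μ * En 2 b (vw b) (df m m₀ τ) :=
    mul_left_cancel₀ (pow_pos hμ 2).ne' (by rw [r2]; ring)
  have q3 : En 3 (b / μ) (vw (b / μ)) (fun x => μ * df m m₀ τ (μ * x)) =
      En 3 b (vw b) (df m m₀ τ) := mul_left_cancel₀ (pow_pos hμ 3).ne' r3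
  rw [q2, q3] at k
  have z1 : μ * En 2 b (vw b) (df m m₀ τ) + En 3 b (vw b) (df m m₀ τ) ≤
      (μ + 1) * (M ^ 2 * ((C + 1) * M ^ 2 * ρ)) := by
    nlinarith [mul_le_mul_of_nonneg_left v2 hμ.le]
  have z2 : L * ρ ≤ η / 4 := by
    have := hρ.trans (min_le_right _ _)
    rw [le_div_iff₀ (by positivity)] at this
    linarith
  have z3 := mul_le_mul_of_nonneg_left z1 hK.le
  have z4 : K * ((μ + 1) * (M ^ 2 * ((C + 1) * M ^ 2 * ρ))) = L * ρ := by rw [hL]; ring
  linarith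

end Vale.Agent.P264Z
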