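import Vale.Agent.P264Z.E.Basic
import Mathlib.Analysis.Calculus.FDeriv.Symmetric
import Mathlib.Analysis.Calculus.ParametricIntervalIntegral
import Mathlib.MeasureTheory.Integral.DominatedConvergence

/-!
# P264: smooth functions of `(t,x)`
-/

open scoped ContDiff Topology
open Set Filter MeasureTheory

noncomputable section

namespace Vale.Agent.P264Z

/-- jointly smooth -/
def Sm (f : ℝ → ℝ → ℝ) : Prop := ContDiff ℝ ∞ (fun p : ℝ × ℝ => f p.1 p.2)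

/-- time derivative -/
def dt (f : ℝ → ℝ → ℝ) (t x : ℝ) : ℝ := deriv (fun s => f s x) t

variable {f g : ℝ → ℝ → ℝ}

lemma Sm.slice (hf : Sm f) (t : ℝ) : ContDiff ℝ ∞ (f t) :=
  hf.comp (contDiff_const.prodMk contDiff_id)

lemma Sm.tslice (hf : Sm f) (x : ℝ) : ContDiff ℝ ∞ (fun s => f s x) :=
  hf.comp (contDiff_id.prodMk contDiff_const)

lemma Sm.cont (hf : Sm f) : Continuous (fun p : ℝ × ℝ => f p.1 p.2) := ContDiff.continuous hf

lemma Sm.hasDerivAt_t (hf : Sm f) (t x : ℝ) : HasDerivAt (fun s => f s x) (dt f t x) t :=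
  sm_hasDerivAt (hf.tslice x) t

lemma Sm.dt_eq (hf : Sm f) (t x : ℝ) :
    dt f t x = fderiv ℝ (fun p : ℝ × ℝ => f p.1 p.2) (t, x) (1, 0) := by
  have h1 : HasDerivAt (fun s : ℝ => ((s, x) : ℝ × ℝ)) (1, 0) t :=
    (hasDerivAt_id t).prodMk (hasDerivAt_const t x)
  have h2 := ((hf.differentiable (by simp)) (t, x)).hasFDerivAt.comp_hasDerivAt t h1
  exact h2.deriv

lemma Sm.dx_eq (hf : Sm f) (t x : ℝ) :
    deriv (f t) x = fderiv ℝ (fun p : ℝ × ℝ => f p.1 p.2) (t, x) (0, 1) := by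
  have h1 : HasDerivAt (fun z : ℝ => ((t, z) : ℝ × ℝ)) (0, 1) x :=
    (hasDerivAt_const x t).prodMk (hasDerivAt_id x)
  have h2 := ((hf.differentiable (by simp)) (t, x)).hasFDerivAt.comp_hasDerivAt x h1
  exact h2.deriv

lemma Sm.fd (hf : Sm f) (v : ℝ × ℝ) :
    ContDiff ℝ ∞ fun p : ℝ × ℝ => fderiv ℝ (fun p : ℝ × ℝ => f p.1 p.2) p v :=
  (ContDiff.fderiv_right (m := ∞) hf (by simp)).clm_apply contDiff_const

lemma Sm.dt (hf : Sm f) : Sm (dt f) := by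
  have : (fun p : ℝ × ℝ => P264Z.dt f p.1 p.2) =
      fun p : ℝ × ℝ => fderiv ℝ (fun p : ℝ × ℝ => f p.1 p.2) p (1, 0) :=
    funext fun p => hf.dt_eq p.1 p.2
  unfold Sm
  rw [this]
  exact hf.fd _

lemma Sm.dx (hf : Sm f) : Sm (fun t => deriv (f t)) := by
  have : (fun p : ℝ × ℝ => deriv (f p.1) p.2) =
      fun p : ℝ × ℝ => fderiv ℝ (fun p : ℝ × ℝ => f p.1 p.2) p (0, 1) :=
    funext fun p => hf.dx_eq p.1 p.2
  unfold Sm
  rw [this]
  exact hf.fd _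

lemma Sm.dt_dx (hf : Sm f) (t x : ℝ) :
    P264Z.dt (fun t => deriv (f t)) t x = deriv (P264Z.dt f t) x := by
  set F : ℝ × ℝ → ℝ := fun p => f p.1 p.2 with hF
  have hF2 : ContDiff ℝ ∞ F := hf
  have hd : DifferentiableAt ℝ (fderiv ℝ F) (t, x) :=
    ((hF2.fderiv_right (m := ∞) (by simp)).differentiable (by simp)) _
  have h2 : ∀ v : ℝ × ℝ, fderiv ℝ (fun y => fderiv ℝ F y v) (t, x) =
      (fderiv ℝ (fderiv ℝ F) (t, x)).flip v := by
    intro v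
    rw [fderiv_clm_apply hd (differentiableAt_const v)]
    simp
  have hs : IsSymmSndFDerivAt ℝ F (t, x) :=
    hF2.contDiffAt.isSymmSndFDerivAt (by simp only [minSmoothness_of_isRCLikeNormedField]; norm_cast)
  rw [hf.dx.dt_eq, hf.dt.dx_eq]
  have e1 : (fun p : ℝ × ℝ => deriv (f p.1) p.2) = fun p => fderiv ℝ F p (0, 1) :=
    funext fun p => hf.dx_eq p.1 p.2
  have e2 : (fun p : ℝ × ℝ => P264Z.dt f p.1 p.2) = fun p => fderiv ℝ F p (1, 0) :=
    funext fun p => hf.dt_eq p.1 p.2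
  rw [e1, e2, h2, h2]
  exact hs.eq _ _

lemma Sm.add (hf : Sm f) (hg : Sm g) : Sm (fun t x => f t x + g t x) := ContDiff.add hf hg
lemma Sm.sub (hf : Sm f) (hg : Sm g) : Sm (fun t x => f t x - g t x) := ContDiff.sub hf hg
lemma Sm.mul (hf : Sm f) (hg : Sm g) : Sm (fun t x => f t x * g t x) := ContDiff.mul hf hg
lemma Sm.neg (hf : Sm f) : Sm (fun t x => -f t x) := ContDiff.neg hf
lemma Sm.pow (hf : Sm f) (k : ℕ) : Sm (fun t x => f t x ^ k) := ContDiff.pow hf k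
lemma Sm.const (c : ℝ) : Sm (fun _ _ => c) := contDiff_const
lemma Sm.ofX {h : ℝ → ℝ} (hh : ContDiff ℝ ∞ h) : Sm (fun _ x => h x) := hh.comp contDiff_snd
lemma Sm.ofT {h : ℝ → ℝ} (hh : ContDiff ℝ ∞ h) : Sm (fun t _ => h t) := hh.comp contDiff_fst
lemma Sm.x : Sm (fun _ x => x) := contDiff_snd
lemma Sm.xpow (k : ℕ) : Sm (fun _ x => x ^ k) := ContDiff.pow contDiff_snd k
lemma Sm.cmul (hf : Sm f) (c : ℝ) : Sm (fun t x => c * f t x) := (Sm.const c).mul hf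

lemma Sm.Mop (n : ℕ) (hf : Sm f) : Sm (fun t => Mop n (f t)) := by
  have := (((Sm.xpow 2).mul hf.dx.dx).add ((Sm.x.cmul (2 * ((n : ℝ) + 1))).mul hf.dx)).add
    (hf.cmul ((n : ℝ) * ((n : ℝ) + 1)))
  exact this

lemma Sm.Lop (n : ℕ) (hf : Sm f) : Sm (fun t => Lop n (f t)) := (hf.Mop n).dx.dx

lemma Sm.dn (hf : Sm f) : Sm (fun t => dn (f t)) := by
  have := (((Sm.xpow 4).mul (hf.dx.dx.pow 2)).add ((Sm.xpow 2).mul (hf.dx.pow 2))).add (hf.pow 2)
  exact this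

lemma Sm.dh (b : ℝ) (hf : Sm f) : Sm (fun t => dh b (f t)) := by
  have := ((((Sm.xpow 4).mul ((Sm.ofX (sm_vw b)).pow 4)).mul (hf.dx.dx.pow 2)).add
    (((Sm.xpow 2).mul ((Sm.ofX (sm_vw b)).pow 2)).mul (hf.dx.pow 2))).add (hf.pow 2)
  exact this

lemma Sm.dt_dx' (hf : Sm f) (t : ℝ) :
    P264Z.dt (fun t => deriv (f t)) t = deriv (P264Z.dt f t) := funext (hf.dt_dx t)

lemma Sm.dt_Mop (n : ℕ) (hf : Sm f) (t : ℝ) :
    P264Z.dt (fun t => P264Z.Mop n (f t)) t = P264Z.Mop n (P264Z.dt f t) := by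
  funext x
  have h2 := (hf.dx.dx.hasDerivAt_t t x).const_mul (x ^ 2)
  have h1 := (hf.dx.hasDerivAt_t t x).const_mul (2 * ((n : ℝ) + 1) * x)
  have h0 := (hf.hasDerivAt_t t x).const_mul ((n : ℝ) * ((n : ℝ) + 1))
  have h := ((h2.add h1).add h0).deriv
  rw [hf.dx.dt_dx, hf.dt_dx'] at h
  exact h

lemma Sm.dt_Lop (n : ℕ) (hf : Sm f) (t : ℝ) :
    P264Z.dt (fun t => P264Z.Lop n (f t)) t = P264Z.Lop n (P264Z.dt f t) := by
  have h := (hf.Mop n).dx.dt_dx' t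
  rw [(hf.Mop n).dt_dx', hf.dt_Mop] at h
  exact h

lemma Sm.dt_sub (hf : Sm f) (hg : Sm g) (t x : ℝ) :
    P264Z.dt (fun t x => f t x - g t x) t x = P264Z.dt f t x - P264Z.dt g t x :=
  ((hf.hasDerivAt_t t x).sub (hg.hasDerivAt_t t x)).deriv

lemma Sm.dt_add (hf : Sm f) (hg : Sm g) (t x : ℝ) :
    P264Z.dt (fun t x => f t x + g t x) t x = P264Z.dt f t x + P264Z.dt g t x :=
  ((hf.hasDerivAt_t t x).add (hg.hasDerivAt_t t x)).deriv

lemma dt_xmul (h : ℝ → ℝ) (f : ℝ → ℝ → ℝ) (t x : ℝ) :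
    dt (fun t x => h x * f t x) t x = h x * dt f t x := deriv_const_mul_field _

/-- a jointly smooth function is bounded on rectangles -/
lemma Sm.bdd (hf : Sm f) (a b c d : ℝ) :
    ∃ C : ℝ, 0 ≤ C ∧ ∀ t ∈ Icc a b, ∀ x ∈ Icc c d, |f t x| ≤ C := by
  obtain ⟨C, hC⟩ := (isCompact_Icc.prod isCompact_Icc : IsCompact (Icc a b ×ˢ Icc c d)).exists_bound_of_continuousOn
    hf.cont.continuousOn
  exact ⟨max C 0, le_max_right _ _, fun t ht x hx => (hC (t, x) ⟨ht, hx⟩).trans (le_max_left _ _)⟩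

lemma Sm.cont_int (hf : Sm f) (a b : ℝ) : Continuous fun t => ∫ x in a..b, f t x :=
  intervalIntegral.continuous_parametric_intervalIntegral_of_continuous' (f := f) hf.cont a b

/-- differentiation under the integral -/
lemma Sm.hasDerivAt_int (hf : Sm f) {a b : ℝ} (hab : a ≤ b) (t : ℝ) :
    HasDerivAt (fun s => ∫ x in a..b, f s x) (∫ x in a..b, P264Z.dt f t x) t := by
  obtain ⟨C, -, hC⟩ := hf.dt.bdd (t - 1) (t + 1) a b
  refine (intervalIntegral.hasDerivAt_integral_of_dominated_loc_of_deriv_le (μ := volume)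
    (F := fun s x => f s x) (F' := fun s x => P264Z.dt f s x) (s := Icc (t - 1) (t + 1))
    (bound := fun _ => C) (Icc_mem_nhds (by linarith) (by linarith)) ?_ ?_ ?_ ?_ ?_ ?_).2
  · exact Eventually.of_forall fun s => (hf.slice s).continuous.aestronglyMeasurable
  · exact (hf.slice t).continuous.intervalIntegrable _ _
  · exact (hf.dt.slice t).continuous.aestronglyMeasurable
  · refine Eventually.of_forall fun x hx s hs => ?_
    rw [uIoc_of_le hab] at hx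
    exact hC s hs x ⟨hx.1.le, hx.2⟩
  · exact intervalIntegrable_const
  · exact Eventually.of_forall fun x _ s _ => hf.hasDerivAt_t s x

lemma Sm.cont_Dn (hf : Sm f) (p : ℕ) (b : ℝ) : Continuous fun t => Dn p b (f t) :=
  ((Sm.xpow p).mul hf.dn).cont_int 0 b

lemma Sm.cont_Dh (hf : Sm f) (p : ℕ) (b : ℝ) : Continuous fun t => Dh p b (f t) :=
  ((Sm.xpow p).mul (hf.dh b)).cont_int 0 b

lemma Sm.cont_En {y : ℝ → ℝ → ℝ} (hy : Sm y) (hf : Sm f) (p : ℕ) (b : ℝ) :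
    Continuous fun t => En p b (y t) (f t) :=
  (((Sm.xpow (p + 2)).mul (hy.pow 2)).mul ((hf.Lop 10).pow 2)).cont_int 0 b

/-- the derivative of the energy -/
lemma hasDerivAt_En {y u : ℝ → ℝ → ℝ} (hy : Sm y) (hu : Sm u) (p : ℕ) {b : ℝ} (hb : 0 ≤ b)
    (t : ℝ) : HasDerivAt (fun s => En p b (y s) (u s))
      (2 * (∫ x in (0 : ℝ)..b, x ^ (p + 2) * (y t x * dt y t x) * Lop 10 (u t) x ^ 2) +
        2 * Pr p b (fun x => y t x ^ 2 * Lop 10 (u t) x) (dt u t)) t := by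
  have h := (((Sm.xpow (p + 2)).mul (hy.pow 2)).mul ((hu.Lop 10).pow 2)).hasDerivAt_int hb t
  have c1 : Continuous fun x => 2 * (x ^ (p + 2) * (y t x * dt y t x) * Lop 10 (u t) x ^ 2) :=
    ((((Sm.xpow (p + 2)).mul (hy.mul hy.dt)).mul ((hu.Lop 10).pow 2)).cmul 2 |>.slice t).continuous
  have c2 : Continuous fun x =>
      2 * (x ^ (p + 2) * (y t x ^ 2 * Lop 10 (u t) x) * Lop 10 (dt u t) x) :=
    ((((Sm.xpow (p + 2)).mul ((hy.pow 2).mul (hu.Lop 10))).mul (hu.dt.Lop 10)).cmul 2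
      |>.slice t).continuous
  unfold Pr
  rw [← intervalIntegral.integral_const_mul, ← intervalIntegral.integral_const_mul,
    ← int_add c1 c2]
  refine HasDerivAt.congr_deriv h (intervalIntegral.integral_congr fun x _ => ?_)
  have h1 := (((hy.hasDerivAt_t t x).pow 2).const_mul (x ^ (p + 2))).mul
    (((hu.Lop 10).hasDerivAt_t t x).pow 2)
  rw [hu.dt_Lop 10 t] at h1
  have h2 := h1.deriv
  refine Eq.trans h2 ?_
  simp only [Pi.pow_apply]
  push_cast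
  ring

/-- the equation holds on the closed rectangle -/
lemma Sol.pde' {n : ℕ} {b T : ℝ} {m : ℝ → ℝ → ℝ} (h : Sol n b T m) (hb : 0 < b) (hT : 0 < T) :
    ∀ t ∈ Icc 0 T, ∀ x ∈ Icc 0 b, dt m t x = -(1 - x * m t x) ^ 2 * Lop n (m t) x := by
  have hm : Sm m := h.smooth
  have hc : IsClosed {p : ℝ × ℝ | dt m p.1 p.2 = -(1 - p.2 * m p.1 p.2) ^ 2 * Lop n (m p.1) p.2} :=
    isClosed_eq hm.dt.cont
      ((((Sm.const 1).sub (Sm.x.mul hm)).pow 2).neg.mul (hm.Lop n)).cont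
  have hs : Ioo 0 T ×ˢ Ioo 0 b ⊆
      {p : ℝ × ℝ | dt m p.1 p.2 = -(1 - p.2 * m p.1 p.2) ^ 2 * Lop n (m p.1) p.2} :=
    fun p hp => h.pde p.1 hp.1 p.2 hp.2
  have := hc.closure_subset_iff.2 hs
  rw [closure_prod_eq, closure_Ioo hT.ne, closure_Ioo hb.ne] at this
  exact fun t ht x hx => this (show (t, x) ∈ Icc 0 T ×ˢ Icc 0 b from ⟨ht, hx⟩)

end Vale.Agent.P264Z
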